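import Vale.Agent.P251EJ.DefsA
import Mathlib.RingTheory.Localization.FractionRing
import Mathlib.Algebra.MvPolynomial.CommRing

/-!
# P251EJ, row TAU: the idempotent `η ∘ ε` on `BP_* E(n+1)`
-/

open MvPolynomial

noncomputable section

namespace Vale.Agent.P251EJ2

open Vale.Agent.P217 Vale.Agent.P251.F Vale.Agent.P257.H80 Vale.Agent.P221.H246
  Vale.Agent.P221.T Vale.Agent.P221.T.H520 Vale.Agent.P251EJ

/-! ### maps out of `(R / J)[w⁻¹]` -/

section ql

variable {R S : Type} [CommRing R] [CommRing S] (J : Ideal R) (w : R)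

theorem qL_unit : IsUnit (qL J w w) :=
  IsLocalization.Away.algebraMap_isUnit (S := QL J w) (Ideal.Quotient.mk J w)

theorem qL_zero {x : R} (hx : x ∈ J) : qL J w x = 0 := by
  unfold qL
  rw [RingHom.comp_apply, Ideal.Quotient.eq_zero_iff_mem.2 hx, map_zero]

theorem exists_lift (f : R →+* S) (hJ : ∀ x ∈ J, f x = 0) (hw : IsUnit (f w)) :
    ∃ F : QL J w →+* S, ∀ x, F (qL J w x) = f x := by
  have h : IsUnit (Ideal.Quotient.lift J f hJ (Ideal.Quotient.mk J w)) := by
    rwa [Ideal.Quotient.lift_mk]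
  refine ⟨IsLocalization.Away.lift (S := QL J w) (Ideal.Quotient.mk J w) h, fun x => ?_⟩
  unfold qL
  rw [RingHom.comp_apply, IsLocalization.Away.lift_eq, Ideal.Quotient.lift_mk]

theorem qL_surj (a : QL J w) : ∃ (j : ℕ) (x : R), qL J w w ^ j * a = qL J w x := by
  obtain ⟨j, y, h⟩ := IsLocalization.Away.surj (S := QL J w) (Ideal.Quotient.mk J w) a
  obtain ⟨x, rfl⟩ := Ideal.Quotient.mk_surjective y
  exact ⟨j, x, by rw [mul_comm]; exact h⟩

theorem qL_ext {F G : QL J w →+* S} (h : ∀ x, F (qL J w x) = G (qL J w x)) (a : QL J w) :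
    F a = G a := by
  obtain ⟨j, x, hx⟩ := qL_surj J w a
  have h2 := congrArg F hx
  have h3 := congrArg G hx
  rw [map_mul, map_pow] at h2 h3
  have h1 : F (qL J w w) ^ j * F a = F (qL J w w) ^ j * G a := by
    rw [h2, h x, ← h3, h w]
  exact (((qL_unit J w).map F).pow j).mul_left_cancel h1

end ql

variable (p : ℕ) [hp : Fact p.Prime]

/-! ### the counit and the right unit -/

/-- the counit `t_k ↦ 0` -/
def eps : G0 p →+* K0 p := constantCoeff

theorem eps_C (c : K0 p) : eps p (C c) = c := constantCoeff_C _ _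

theorem eps_X (k : ℕ) : eps p (X k) = 0 := constantCoeff_X _ _

theorem eps_eta (i : ℕ) : eps p (eta0 p i) = X i := by
  obtain ⟨g, hg, hgc, ψ, hψ, h⟩ := eta0_spec p
  have hK : PLoc p (K0 p) := (ploc_Z0 p).map C
  have h1 := map_typical p (eps p) h
  have h2 : InvSeries.map (eps p) g = 1 := by
    refine eq_of_typical p hK (map_mem_strict _ hg) (one_mem _) ⟨_, h1⟩
      ⟨(eps p).comp (φ0 p), by rw [inv_one, one_smul]⟩ fun k => ?_
    have h3 : 1 < p ^ (k + 1) := Nat.one_lt_pow (Nat.succ_ne_zero k) hp.out.one_lt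
    obtain ⟨m, hm⟩ : ∃ m, p ^ (k + 1) - 1 = m + 1 := ⟨p ^ (k + 1) - 2, by omega⟩
    rw [InvSeries.c_map, hgc, hm, InvSeries.c_one_succ, eps_X]
  rw [h2, inv_one, one_smul] at h1
  have h4 := congrArg (fun f => f (X i)) (haz_map_injective p hK h1)
  change eps p (φ0 p (X i)) = eps p (ψ (X i)) at h4
  rw [hψ, φ0_X, eps_C] at h4
  exact h4.symm

/-- the right unit on `ℤ_(p)[v_1, v_2, …]` -/
def etaK : K0 p →+* G0 p := eval₂Hom (C.comp C) (eta0 p)

theorem etaK_X (i : ℕ) : etaK p (X i) = eta0 p i := eval₂Hom_X' _ _ _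

theorem etaK_C (c : Z0 p) : etaK p (C c) = C (C c) := eval₂Hom_C _ _ _

theorem eps_etaK (c : K0 p) : eps p (etaK p c) = c := by
  have h : (eps p).comp (etaK p) = RingHom.id _ := by
    apply MvPolynomial.ringHom_ext
    · intro r
      rw [RingHom.comp_apply, etaK_C, eps_C, RingHom.id_apply]
    · intro i
      rw [RingHom.comp_apply, etaK_X, eps_eta, RingHom.id_apply]
  exact RingHom.congr_fun h c

theorem etaK_map (x : MvPolynomial ℕ ℤ) :
    etaK p (map (Int.castRingHom (Z0 p)) x) = etaZ p x := by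
  have h : (etaK p).comp (map (Int.castRingHom (Z0 p))) = etaZ p := by
    apply MvPolynomial.ringHom_ext
    · intro r
      simp
    · intro i
      rw [RingHom.comp_apply, map_X, etaK_X, etaZ, eval₂Hom_X']
  exact RingHom.congr_fun h x

theorem HG_etaK {c : K0 p} {k : ℤ} (hc : c.IsWeightedHomogeneous (fun i => sV p (i + 1)) k) :
    HG p k (etaK p c) := by
  classical
  rw [c.as_sum, map_sum]
  refine HG.sum _ _ fun d hd => ?_
  have h1 := hc (mem_support_iff.1 hd)
  have h2 : etaK p (monomial d (coeff d c)) =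
      C (C (coeff d c)) * ∏ i ∈ d.support, eta0 p i ^ d i := by
    unfold etaK
    rw [coe_eval₂Hom, eval₂_monomial]
    rfl
  have h3 := (HG.CC (coeff d c)).mul
    (HG.prod d.support _ _ fun i _ => (eta0_HG p i).pow (d i))
  have h5 : (0 : ℤ) + ∑ i ∈ d.support, (d i : ℤ) * sV p (i + 1) = k := by
    rw [← h1, Finsupp.weight_apply, Finsupp.sum, zero_add]
    exact Finset.sum_congr rfl fun i _ => by rw [nsmul_eq_mul]
  rw [h5] at h3
  rw [h2]
  exact h3

theorem HG_tau {x : G0 p} {k : ℤ} (hx : HG p k x) : HG p k (etaK p (eps p x)) := by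
  have h := hx 0
  have h1 : k - dT p (0 : ℕ →₀ ℕ) = k := by simp [dT]
  rw [h1] at h
  exact HG_etaK p h

theorem K0_exists_mul (c : K0 p) : ∃ (m : ℕ) (x : MvPolynomial ℕ ℤ), ¬ p ∣ m ∧
    (m : K0 p) * c = map (Int.castRingHom (Z0 p)) x := by
  induction c using MvPolynomial.induction_on with
  | C z =>
    obtain ⟨m, a, hm, h⟩ := Z0.exists_mul z
    refine ⟨m, C a, hm, ?_⟩
    rw [map_C, ← map_natCast (C : Z0 p →+* K0 p), ← map_mul, h]
    rfl
  | add f g hf hg =>
    obtain ⟨m, x, hm, h⟩ := hf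
    obtain ⟨m', x', hm', h'⟩ := hg
    refine ⟨m * m', m' * x + m * x', fun hd => (hp.out.dvd_mul.1 hd).elim hm hm', ?_⟩
    rw [map_add, map_mul, map_mul, map_natCast, map_natCast, ← h, ← h']
    push_cast
    ring
  | mul_X f i hf =>
    obtain ⟨m, x, hm, h⟩ := hf
    exact ⟨m, x * X i, hm, by rw [map_mul, map_X, ← h, mul_assoc]⟩

/-! ### the kernel -/

/-- `v_{j+1} ↦ 0` for `j > n` -/
def kill (n : ℕ) : MvPolynomial ℕ ℤ →+* MvPolynomial ℕ ℤ :=
  eval₂Hom C fun j => if n < j then 0 else X j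

theorem mem_of_kill (n : ℕ) {x : MvPolynomial ℕ ℤ} (hx : kill n x = 0) :
    x ∈ Ideal.span (X '' {j | n < j}) := by
  have h : (Ideal.Quotient.mk (Ideal.span (X '' {j | n < j}))).comp (kill n) =
      Ideal.Quotient.mk (Ideal.span (X '' {j | n < j})) := by
    apply MvPolynomial.ringHom_ext
    · intro r
      simp
    · intro i
      rw [RingHom.comp_apply, kill, eval₂Hom_X']
      split_ifs with hi
      · rw [map_zero]
        symm
        rw [Ideal.Quotient.eq_zero_iff_mem]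
        exact Ideal.subset_span ⟨i, hi, rfl⟩
      · rfl
  rw [← Ideal.Quotient.eq_zero_iff_mem, ← h, RingHom.comp_apply, hx, map_zero]

omit hp in
theorem ploc_rat : PLoc p ℚ := fun _ hm =>
  IsUnit.mk0 _ (Nat.cast_ne_zero.2 fun h => hm (h ▸ dvd_zero p))

/-- the same on `ℤ_(p)[v_1, v_2, …]`, with values in `ℚ[v_1, v_2, …]` -/
def killQ (n : ℕ) : K0 p →+* MvPolynomial ℕ ℚ :=
  eval₂Hom (C.comp (Z0.lift (ploc_rat p))) fun j => if n < j then 0 else X j

theorem killQ_X (n j : ℕ) : killQ p n (X j) = if n < j then 0 else X j := eval₂Hom_X' _ _ _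

theorem killQ_etaZ (n : ℕ) (x : MvPolynomial ℕ ℤ) :
    killQ p n (eps p (etaZ p x)) = map (Int.castRingHom ℚ) (kill n x) := by
  have h : (killQ p n).comp ((eps p).comp (etaZ p)) = (map (Int.castRingHom ℚ)).comp (kill n) := by
    apply MvPolynomial.ringHom_ext
    · intro r
      simp
    · intro i
      rw [RingHom.comp_apply, RingHom.comp_apply, RingHom.comp_apply, etaZ, kill, eval₂Hom_X',
        eval₂Hom_X', eps_eta, killQ_X]
      split_ifs
      · rw [map_zero]
      · rw [map_X]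
  exact RingHom.congr_fun h x

theorem ker_etaZ (n : ℕ) (x : MvPolynomial ℕ ℤ) :
    qA p n (etaZ p x) = 0 ↔ x ∈ Ideal.span (X '' {j | n < j}) := by
  constructor
  · intro hx
    have hinj := IsFractionRing.injective (MvPolynomial ℕ ℚ) (FractionRing (MvPolynomial ℕ ℚ))
    obtain ⟨F, hF⟩ := exists_lift (JJ p n) (eta0 p n)
      ((algebraMap (MvPolynomial ℕ ℚ) (FractionRing (MvPolynomial ℕ ℚ))).comp
        ((killQ p n).comp (eps p)))
      (fun y hy => by
        refine (Ideal.span_le.2 ?_ : JJ p n ≤ RingHom.ker _) hy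
        rintro _ ⟨j, hj, rfl⟩
        rw [SetLike.mem_coe, RingHom.mem_ker, RingHom.comp_apply, RingHom.comp_apply, eps_eta,
          killQ_X, if_pos (show n < j from hj), map_zero])
      (by
        rw [RingHom.comp_apply, RingHom.comp_apply, eps_eta, killQ_X, if_neg (lt_irrefl n)]
        exact IsUnit.mk0 _ ((map_ne_zero_iff _ hinj).2 (X_ne_zero n)))
    have h1 := hF (etaZ p x)
    change F (qA p n (etaZ p x)) = _ at h1
    rw [hx, map_zero, RingHom.comp_apply, RingHom.comp_apply, killQ_etaZ] at h1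
    have h2 := (map_eq_zero_iff _ hinj).1 h1.symm
    exact mem_of_kill n ((map_eq_zero_iff _
      (map_injective (Int.castRingHom ℚ) Int.cast_injective)).1 h2)
  · intro hx
    refine (Ideal.span_le.2 ?_ : _ ≤ RingHom.ker ((qA p n).comp (etaZ p))) hx
    rintro _ ⟨j, hj, rfl⟩
    rw [SetLike.mem_coe, RingHom.mem_ker, RingHom.comp_apply, etaZ, eval₂Hom_X']
    exact qL_zero _ _ (Ideal.subset_span ⟨j, hj, rfl⟩)

/-! ### the row -/

theorem exists_tau (n : ℕ) : ∃ τ : AA p n →+* AA p n,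
    ∀ x, τ (qA p n x) = qA p n (etaK p (eps p x)) := by
  refine exists_lift (JJ p n) (eta0 p n) ((qA p n).comp ((etaK p).comp (eps p))) (fun y hy => ?_) ?_
  · refine (Ideal.span_le.2 ?_ : JJ p n ≤ RingHom.ker _) hy
    rintro _ ⟨j, hj, rfl⟩
    rw [SetLike.mem_coe, RingHom.mem_ker, RingHom.comp_apply, RingHom.comp_apply, eps_eta, etaK_X]
    exact qL_zero _ _ (Ideal.subset_span ⟨j, hj, rfl⟩)
  · rw [RingHom.comp_apply, RingHom.comp_apply, eps_eta, etaK_X]
    exact qL_unit _ _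

/-- row TAU -/
theorem tauA (n : ℕ) : TauA p n := by
  obtain ⟨τ, hτ⟩ := exists_tau p n
  refine ⟨τ, fun d x hx => ⟨_, HG_tau p hx, hτ x⟩, fun i => ?_, fun k => ?_, fun a => ?_,
    fun a => ?_, ker_etaZ p n⟩
  · rw [hτ, eps_C, etaK_X]
  · rw [hτ, eps_X, map_zero, map_zero]
  · refine qL_ext (JJ p n) (eta0 p n) (F := τ.comp τ) (G := τ) (fun x => ?_) a
    change τ (τ (qA p n x)) = τ (qA p n x)
    rw [hτ, hτ, eps_etaK]
  · obtain ⟨j, x, hx⟩ := qL_surj (JJ p n) (eta0 p n) a
    change qA p n (eta0 p n) ^ j * a = qA p n x at hx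
    obtain ⟨m, y, hm, hy⟩ := K0_exists_mul p (eps p x)
    refine ⟨m, j, y, fun h => hm (Int.natCast_dvd_natCast.1 h), ?_⟩
    have h1 := congrArg τ hx
    rw [map_mul, map_pow, hτ, hτ, eps_eta, etaK_X] at h1
    rw [← etaK_map, ← hy, map_mul, map_mul, map_natCast, map_natCast, ← h1, Int.cast_natCast]
    ring

end Vale.Agent.P251EJ2
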